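import Vale.Agent.Lib.P016.Main

namespace Vale.Agent.Results.P016.ArtinFromPrimePairs

open Vale.Agent.Lib.P016

/-- Conditional form of Artin's conjecture for ALL admissible bases at once: if prime pairs
`(q, 2 ^ k q + 1)`, `k ∈ {1, 2}`, occur beyond every bound in every residue class `r` modulo `M`
(`4 ∣ M`) with `r` and `2 ^ k r + 1` coprime to `M` (a special case of Dickson's conjecture),
then every integer `a ≠ -1` that is not a perfect square is a primitive root modulo infinitely
many primes. -/
theorem result :
    PrimePairsInProgressions →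
      ∀ a : ℤ, ¬ IsSquare a → a ≠ -1 →
        Set.Infinite {p : ℕ | p.Prime ∧ ¬ (p : ℤ) ∣ a ∧ orderOf (a : ZMod p) = p - 1} :=
  fun h a hsq ha => artin_of_prime_pairs h a hsq ha

end Vale.Agent.Results.P016.ArtinFromPrimePairs
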