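import Vale.Agent.Lib.P016.Criterion

namespace Vale.Agent.Results.P016.PrimRootCriterion

/-- For primes `p`, `q` with `p - 1 = 2 ^ k * q`, `k ≥ 1` (safe primes `p = 2 q + 1`, primes
`p = 4 q + 1`, and so on), an integer `a` with `p ∤ a ^ (2 ^ k) - 1` is a primitive root modulo `p`
(its residue has multiplicative order `p - 1`) if and only if it is a quadratic non-residue. -/
theorem result :
    ∀ (p q k : ℕ), p.Prime → q.Prime → 1 ≤ k → p - 1 = 2 ^ k * q →
      ∀ a : ℤ, ¬ (p : ℤ) ∣ a ^ (2 ^ k) - 1 →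
        (orderOf (a : ZMod p) = p - 1 ↔ ¬ IsSquare (a : ZMod p)) :=
  fun _ _ _ hp hq hk h a ha =>
    Vale.Agent.Lib.P016.primitive_root_iff_not_isSquare hp hq hk h a ha

end Vale.Agent.Results.P016.PrimRootCriterion
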