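import Vale.Agent.Lib.P016.Main

namespace Vale.Agent.Results.P016.PrimePairClasses

/-- Every integer `a ≠ -1` that is not a perfect square has an exponent `k ∈ {1, 2}` and a residue
class `r` modulo `4 |a|`, with both `r` and `2 ^ k r + 1` coprime to `4 |a|`, such that `a` is a
primitive root modulo EVERY prime `p = 2 ^ k q + 1` with `q > |a| ^ 4` a prime in the class
`r` modulo `4 |a|`. -/
theorem result :
    ∀ a : ℤ, ¬ IsSquare a → a ≠ -1 →
      ∃ k r : ℕ, (k = 1 ∨ k = 2) ∧ Nat.Coprime r (4 * a.natAbs) ∧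
        Nat.Coprime (2 ^ k * r + 1) (4 * a.natAbs) ∧
        ∀ q : ℕ, q.Prime → (2 ^ k * q + 1).Prime →
          q % (4 * a.natAbs) = r % (4 * a.natAbs) → a.natAbs ^ 4 < q →
            orderOf (a : ZMod (2 ^ k * q + 1)) = 2 ^ k * q :=
  fun a hsq ha => Vale.Agent.Lib.P016.primitive_root_at_prime_pairs a hsq ha

end Vale.Agent.Results.P016.PrimePairClasses
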